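import Vale.Agent.P248.Star

open MeasureTheory

theorem Vale.Agent.Results.P248.SymmIneq.result (n : ℕ) (hn : 1 ≤ n) (K : Set (Fin n → ℝ))
    (hK : Vale.Agent.P248.IsSymmBody K) :
    (4 : ℝ) ^ n / n.factorial ≤
      (volume K).toReal * (volume (Vale.Agent.P248.polar K)).toReal :=
  Vale.Agent.P248.mahler_ineq hn hK
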