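import Vale.Agent.P248.Vol

open MeasureTheory

theorem Vale.Agent.Results.P248.SymmMahler.result (n : ℕ) (hn : 1 ≤ n) (K : Set (Fin n → ℝ))
    (hK : Vale.Agent.P248.IsSymmBody K) :
    (4 : ℝ) ^ n / n.factorial ≤
      (volume K).toReal * (volume (Vale.Agent.P248.polar K)).toReal ∧
    ((volume K).toReal * (volume (Vale.Agent.P248.polar K)).toReal = (4 : ℝ) ^ n / n.factorial ↔
      ∃ (H : Set (Fin n → ℝ)) (T : (Fin n → ℝ) ≃ₗ[ℝ] (Fin n → ℝ)),
        Vale.Agent.P248.IsHanner n H ∧ K = T '' H) :=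
  ⟨Vale.Agent.P248.mahler_ineq hn hK, Vale.Agent.P248.mahler_eq_iff hn hK⟩
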